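import Vale.Agent.P129B.Choice

/-!
# Quantifiers bounded below by an inequality
-/

namespace Vale.Agent.P129B

universe v

variable {N : Type v} [ZM N] {α β : Type*} [Coded N α] [Coded N β] [Tot N β]

@[fun_prop] theorem DefF.allLt [LT β] [DefLT N β] {s : α → β} {P : α → β → Prop} (hs : DefF N s)
    (h : DefF N (fun p : α × β => P p.1 p.2)) : DefF N (fun a => ∀ b, s a < b → P a b) :=
  DefF.allT (P := fun a b => s a < b → P a b)
    (DefF.imp (DefF.lt (hs.comp DefF.id.fst) DefF.id.snd) h)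

@[fun_prop] theorem DefF.allLe [LE β] [DefLE N β] {s : α → β} {P : α → β → Prop} (hs : DefF N s)
    (h : DefF N (fun p : α × β => P p.1 p.2)) : DefF N (fun a => ∀ b, s a ≤ b → P a b) :=
  DefF.allT (P := fun a b => s a ≤ b → P a b)
    (DefF.imp (DefF.le (hs.comp DefF.id.fst) DefF.id.snd) h)

@[fun_prop] theorem DefF.exLt [LT β] [DefLT N β] {s : α → β} {P : α → β → Prop} (hs : DefF N s)
    (h : DefF N (fun p : α × β => P p.1 p.2)) : DefF N (fun a => ∃ b, s a < b ∧ P a b) :=
  DefF.exT (P := fun a b => s a < b ∧ P a b)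
    (DefF.and (DefF.lt (hs.comp DefF.id.fst) DefF.id.snd) h)

@[fun_prop] theorem DefF.exLe [LE β] [DefLE N β] {s : α → β} {P : α → β → Prop} (hs : DefF N s)
    (h : DefF N (fun p : α × β => P p.1 p.2)) : DefF N (fun a => ∃ b, s a ≤ b ∧ P a b) :=
  DefF.exT (P := fun a b => s a ≤ b ∧ P a b)
    (DefF.and (DefF.le (hs.comp DefF.id.fst) DefF.id.snd) h)

end Vale.Agent.P129B
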