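import Vale.Agent.P129BI.Unb
import Vale.Agent.P129BZ.Dual

/-!
# Separable quotients from unbounded sequences in the dual
-/

set_option linter.all false

namespace Vale.Agent.P129B.BI

universe v

variable {N : Type v} [ZM N] {R : Type*} [Field R] [LinearOrder R] [IsStrictOrderedRing R]
  [Coded N R] [RF N R] {K : Type*} [Field K] [Algebra R K] [Nm K R] [KA R K] [Coded N K]
  [KF N R K] {E : Type*} [AddCommGroup E] [Module K E] [Nm E R] [NA R K E] [Coded N E]
  [NS N R K E]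

/-- **An unbounded sequence of functionals which is bounded on a dense set gives a separable
quotient.** -/
theorem unb_dual [Cpl N R E] (g : NN N → Dual N K E) [Intl N g]
    (hunb : ∀ c : R, ∃ k, c < nm (g k))
    (hdense : ∀ (x : E) (ε : R), 0 < ε → ∃ y, (∃ c : R, ∀ k, nm (g k y) ≤ c) ∧ nm (x - y) < ε) :
    ∃ Y : Set E, IsISub N K Y ∧
      (∀ x : E, (∀ ε : R, 0 < ε → ∃ y ∈ Y, nm (x - y) < ε) → x ∈ Y) ∧
      (¬ ∃ (n : NN N) (w : NN N → E), Intl N w ∧
        ∀ x, ∃ c : NN N → K, Intl N c ∧ x - isum (fun i => c i • w i) n ∈ Y) ∧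
      ∃ d : NN N → E, Intl N d ∧
        ∀ (x : E) (ε : R), 0 < ε → ∃ n, ∃ y ∈ Y, nm (x - d n - y) < ε := by
  have hg : Intl N (fun k x => g k x) :=
    DefF.toIntl (DefF.lam (fun k x => g k x) (by fun_prop))
  refine unb_core (fun k x => g k x) (fun k => map_add (g k)) (fun k => (g k).smul_arg)
    (fun k => (g k).bdd) (fun c => ?_) hdense
  obtain ⟨k, hk⟩ := hunb |c|
  obtain ⟨x, h1, h2⟩ := (g k).exists_lt_apply_le hk
  refine ⟨k, x, lt_of_le_of_lt ?_ h2⟩
  exact (mul_le_mul_of_nonneg_right (le_abs_self c) (nm_nonneg x)).trans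
    (mul_le_of_le_one_right (abs_nonneg c) h1)

/-- Weighted functionals which are bounded below are unbounded. -/
theorem unb_of_le (φ : NN N → Dual N K E) {c : R} (hc : 0 < c) (h : ∀ k, c ≤ nm (φ k)) (r : R) :
    ∃ k, r < nm (algebraMap R K (rc R k) • φ k) := by
  obtain ⟨k, hk⟩ := exists_rc_gt N (r / c)
  refine ⟨k, ?_⟩
  rw [nm_ofR_smul_of_nonneg (rc_nonneg k)]
  rw [div_lt_iff₀ hc] at hk
  exact hk.trans_le (mul_le_mul_of_nonneg_left (h k) (rc_nonneg k))

end Vale.Agent.P129B.BI
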