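import Vale.Agent.P129BI.UnbD
import Vale.Agent.P129BM.Spec

/-!
# Separable quotients from unbounded sequences: the final form
-/

set_option linter.all false

namespace Vale.Agent.P129B

universe v

variable {N : Type v} [ZM N] {R : Type*} [Field R] [LinearOrder R] [IsStrictOrderedRing R]
  [Coded N R] [RF N R] {K : Type*} [Field K] [Algebra R K] [Nm K R] [KA R K] [Coded N K]
  [KF N R K] {E : Type*} [AddCommGroup E] [Module K E] [Nm E R] [NA R K E] [Coded N E]
  [NS N R K E]

/-- An unbounded internal sequence of functionals which is bounded at a dense set of points gives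
a separable quotient. -/
theorem absSQ_of_unbounded [Cpl N R E] (g : NN N → Dual N K E) [Intl N g]
    (hunb : ∀ c : R, ∃ k, c < nm (g k)) (hdense : Dns (Bd g)) : AbsSQ N K E :=
  BI.unb_dual g hunb hdense

/-- The same for the weighted sequence of a sequence which is bounded below. -/
theorem absSQ_of_wt [Cpl N R E] (φ : NN N → Dual N K E) [Intl N φ] {c : R} (hc : 0 < c)
    (hφ : ∀ k, c ≤ nm (φ k)) (hdense : Dns (Bd (wt φ))) : AbsSQ N K E :=
  absSQ_of_unbounded (wt φ) (BI.unb_of_le φ hc hφ) hdense

/-- The row `UNB`. -/
theorem unb [Cpl N R E] : UNB N R K E := fun g hg h1 h2 => absSQ_of_unbounded g h1 h2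

/-- A lower Euclidean estimate bounds the norms from below. -/
theorem Lo2.le_nm {φ : NN N → Dual N K E} [Intl N φ] {c : R} (h : Lo2 φ c) (k : NN N) :
    c ≤ nm (φ k) := by
  classical
  have ha : DefF N (fun i : NN N => if i = k then (1 : K) else 0) := by fun_prop
  have h1 := h (k + 1) _ ha.toIntl
  rw [cmb_single ha (by fun_prop) (NN.lt_add_one k) (fun i _ hi => if_neg hi),
    isum_single (j := k) (by fun_prop) (NN.lt_add_one k) (fun i _ hi => by simp [hi])] at h1
  simp only [if_true, KA.nm_one, one_pow, mul_one, one_smul] at h1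
  exact le_of_sq_le_sq h1 (nm_nonneg _)

end Vale.Agent.P129B
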