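import Vale.Agent.P129BI.Step
import Vale.Agent.P129BI.FP
import Vale.Agent.P129BN.Elim

/-!
# An internal biorthogonal sequence and a dense sequence in the quotient
-/

set_option linter.all false

namespace Vale.Agent.P129B.BI

universe v

variable {N : Type v} [ZM N]
variable {R K E : Type*} [Field R] [LinearOrder R] [IsStrictOrderedRing R] [Field K]
  [AddCommGroup E] [Module K E] [Coded N R] [Coded N K] [Coded N E] [Tot N R] [Tot N K] [Tot N E]
  [DefMul N R] [DefLE N R] [DefLT N R] [DefAdd N K] [DefMul N K] [DefAdd N E] [DefSMul N K E]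
  {ab : K → R} {nm : E → R}

theorem defF_lin {α : Type*} [Coded N α] (hab : DefF N ab) (hnm : DefF N nm) {u : α → E → K}
    (hu : DefF N (fun p : α × E => u p.1 p.2)) : DefF N (fun a => Lin ab nm (u a)) := by
  unfold Lin
  fun_prop

theorem defF_pg {α : Type*} [Coded N α] (hab : DefF N ab) (hnm : DefF N nm)
    (g : NN N → E → K) [Intl N g] {P : α → E → E} (hP : DefF N (fun p : α × E => P p.1 p.2)) :
    DefF N (fun a => PG ab nm g (P a)) := by
  have hg := DefF.ofIntl2 (N := N) g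
  unfold PG
  fun_prop

theorem defF_sg {α : Type*} [Coded N α] (hab : DefF N ab) (hnm : DefF N nm)
    (g : NN N → E → K) [Intl N g] {P : α → E → E} (hP : DefF N (fun p : α × E => P p.1 p.2))
    {ε : α → R} (hε : DefF N ε) {x : α → E} (hx : DefF N x) {h : α → E → K}
    (hh : DefF N (fun p : α × E => h p.1 p.2)) :
    DefF N (fun a => SG ab nm g (P a) (ε a) (x a) (h a)) := by
  have hg := DefF.ofIntl2 (N := N) g
  have h1 := defF_lin hab hnm hh
  unfold SG Bnd
  fun_prop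

/-- The sequence of projections, vectors and functionals. -/
theorem exists_proj (H : NP ab nm) (hab : DefF N ab) (hnm : DefF N nm) (g : NN N → E → K)
    [Intl N g] (hg : ∀ k, Lin ab nm (g k)) (hunb : ∀ c : R, ∃ k x, c * nm x < ab (g k x))
    (hdense : ∀ (x : E) (ε : R), 0 < ε → ∃ y, Bnd ab g y ∧ nm (x - y) < ε) (e : NN N → R)
    [Intl N e] (he : ∀ n, 0 < e n) :
    ∃ (P : NN N → E → E) (a : NN N → E) (b : NN N → E → K), Intl N P ∧ Intl N a ∧ Intl N b ∧
      (∀ y, P 0 y = 0) ∧ (∀ n y, P (n + 1) y = P n y + b n y • a n) ∧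
      ∀ n, PG ab nm g (P n) ∧ SG ab nm g (P n) (e n) (a n) (b n) := by
  haveI : DefNeg N E := defNeg_of_add
  haveI : DefSub N E := defSub_of_neg
  haveI : DefInv N K := defInv_of_mul
  have hg2 := DefF.ofIntl2 (N := N) g
  have key : ∀ (n : NN N) (P : E → E), Intl N P → PG ab nm g P →
      ∃ (x : E) (h : E → K), Intl N h ∧ SG ab nm g P (e n) x h := by
    intro n P hP hP'
    obtain ⟨k, y, h⟩ := step H hg hunb hdense hP' (he n)
    exact ⟨_, _, DefF.toIntl (by fun_prop), h⟩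
  obtain ⟨x₀, h₀, hI₀, hS₀⟩ := key 0 (fun _ => 0) inferInstance (pg_zero H hg)
  obtain ⟨s, hs, hs0, hs1⟩ := exists_intl_seq (N := N) (β := (E → E) × E × (E → K))
    (Inv := fun n s => PG ab nm g s.1 ∧ SG ab nm g s.1 (e n) s.2.1 s.2.2)
    (R := fun _ s t => ∀ y, t.1 y = s.1 y + s.2.2 y • s.2.1)
    (DefF.and (defF_pg hab hnm g (by fun_prop))
      (defF_sg hab hnm g (by fun_prop) (by fun_prop) (by fun_prop) (by fun_prop)))
    (by fun_prop) (fun _ => 0, x₀, h₀) ⟨pg_zero H hg, hS₀⟩ (fun n s hs h => by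
      have h1 := h.1.next H hg h.2
      have h2 : Intl N s.1 := inferInstance
      have h3 : Intl N s.2.2 := inferInstance
      have h4 : Intl N (fun y => s.1 y + s.2.2 y • s.2.1) := DefF.toIntl (by fun_prop)
      obtain ⟨x, u, hu, hS⟩ := key (n + 1) _ h4 h1
      exact ⟨(_, x, u), inferInstance, ⟨h1, hS⟩, fun y => rfl⟩)
  refine ⟨fun n => (s n).1, fun n => (s n).2.1, fun n => (s n).2.2, DefF.toIntl (by fun_prop),
    DefF.toIntl (by fun_prop), DefF.toIntl (by fun_prop), fun y => ?_, fun n => (hs1 n).2,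
    fun n => (hs1 n).1⟩
  beta_reduce
  rw [hs0]

/-- A dense sequence in the union of the ranges of the projections. -/
theorem exists_dense_range (H : NP ab nm) (hnm : DefF N nm) (P : NN N → E → E) (a : NN N → E)
    (b : NN N → E → K) [Intl N P] [Intl N a] (h0 : ∀ y, P 0 y = 0)
    (h1 : ∀ n y, P (n + 1) y = P n y + b n y • a n) (p₁ p₂ : NN N → NN N) [Intl N p₁] [Intl N p₂]
    (hp : ∀ i j, ∃ t, p₁ t = i ∧ p₂ t = j) (q : NN N → K) [Intl N q]
    (hq : ∀ (c : K) (ε : R), 0 < ε → ∃ t, ab (c - q t) ≤ ε) :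
    ∃ d : NN N → E, Intl N d ∧ ∀ n y (ε : R), 0 < ε → ∃ t, nm (P n y - d t) < ε := by
  haveI : DefNeg N E := defNeg_of_add
  haveI : DefSub N E := defSub_of_neg
  have hP2 := DefF.ofIntl2 (N := N) P
  obtain ⟨D, hD, hD0, hD1⟩ := exists_intl_rec (N := N) (β := NN N → E) (fun _ => 0)
    (s := fun n f t => f (p₁ t) + q (p₂ t) • a n) (by fun_prop)
  have hD2 := DefF.ofIntl2 (N := N) D
  have key : ∀ n, ∀ y (ε : R), 0 < ε → ∃ t, nm (P n y - D n t) < ε := by
    refine NN.ind (P := fun n => ∀ y (ε : R), 0 < ε → ∃ t, nm (P n y - D n t) < ε) (by fun_prop)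
      (fun y ε hε => ⟨0, by rw [h0, hD0, sub_self, H.nm_zero]; exact hε⟩) fun n ih y ε hε => ?_
    have ha := H.nm_nonneg (a n)
    obtain ⟨i, hi⟩ := ih y (ε / 2) (by positivity)
    obtain ⟨j, hj⟩ := hq (b n y) (ε / 2 / (nm (a n) + 1)) (by positivity)
    obtain ⟨t, rfl, rfl⟩ := hp i j
    refine ⟨t, ?_⟩
    have e : P (n + 1) y - D (n + 1) t =
        (P n y - D n (p₁ t)) + (b n y - q (p₂ t)) • a n := by
      rw [h1, hD1, sub_smul]; beta_reduce; rw [← sub_sub]; abel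
    rw [e]
    refine (H.nm_add _ _).trans_lt ?_
    rw [H.nm_smul]
    rw [le_div_iff₀ (by positivity)] at hj
    have := H.ab_nonneg (b n y - q (p₂ t))
    nlinarith
  refine ⟨fun t => D (p₁ t) (p₂ t), DefF.toIntl (by fun_prop), fun n y ε hε => ?_⟩
  obtain ⟨i, hi⟩ := key n y ε hε
  obtain ⟨t, rfl, rfl⟩ := hp n i
  exact ⟨t, hi⟩

/-- **The biorthogonal system of an unbounded sequence which is bounded on a dense set.** -/
theorem exists_bio (H : NP ab nm) (hab : DefF N ab) (hnm : DefF N nm) (g : NN N → E → K)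
    [Intl N g] (hg : ∀ k, Lin ab nm (g k)) (hunb : ∀ c : R, ∃ k x, c * nm x < ab (g k x))
    (hdense : ∀ (x : E) (ε : R), 0 < ε → ∃ y, Bnd ab g y ∧ nm (x - y) < ε) (e : NN N → R)
    [Intl N e] (he : ∀ n, 0 < e n)
    (geo : ∀ (x : NN N → E) (C : R), Intl N x → (∀ j, nm (x j - x (j + 1)) ≤ C * e j) →
      ∃ w, ∀ ε : R, 0 < ε → ∃ n, ∀ k, n ≤ k → nm (x k - w) ≤ ε)
    (p₁ p₂ : NN N → NN N) [Intl N p₁] [Intl N p₂]
    (hp : ∀ i j, ∃ t, p₁ t = i ∧ p₂ t = j) (q : NN N → K) [Intl N q]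
    (hq : ∀ (c : K) (ε : R), 0 < ε → ∃ t, ab (c - q t) ≤ ε) :
    ∃ (a : NN N → E) (b : NN N → E → K), Intl N a ∧ Intl N b ∧ (∀ n, Lin ab nm (b n)) ∧
      Bio {y | ∀ n, b n y = 0} a b ∧ ∃ d : NN N → E, Intl N d ∧
        ∀ (x : E) (ε : R), 0 < ε → ∃ t y, (∀ n, b n y = 0) ∧ nm (x - d t - y) < ε := by
  obtain ⟨P, a, b, hP, ha, hb, h0, h1, hS⟩ := exists_proj H hab hnm g hg hunb hdense e he
  obtain ⟨d, hd, hd'⟩ := exists_dense_range H hnm P a b h0 h1 p₁ p₂ hp q hq
  have hP2 := DefF.ofIntl2 (N := N) P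
  have hb2 := DefF.ofIntl2 (N := N) b
  have hL : ∀ n, Lin ab nm (b n) := fun n => (hS n).2.1
  have q1 : ∀ n, b n (a n) = 1 := fun n => (hS n).2.2.1
  have q2 : ∀ n, P n (a n) = 0 := fun n => (hS n).2.2.2.1
  have q3 : ∀ n y, b n (P n y) = 0 := fun n => (hS n).2.2.2.2.1
  have hbP : ∀ m n, m < n → ∀ y, b m (P n y) = b m y := fun m n hmn =>
    NN.le_ind (P := fun n => ∀ y, b m (P n y) = b m y) (by fun_prop)
      (fun y => by rw [h1, (hL m).1, q3, (hL m).2.1, q1, zero_add, mul_one])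
      (fun n _ ih y => by
        have h2 : b m (a n) = 0 := by rw [← ih (a n), q2, (hL m).zero]
        rw [h1, (hL m).1, ih, (hL m).2.1, h2, mul_zero, add_zero]) (NN.add_one_le_iff.2 hmn)
  have hPa : ∀ m n, m < n → P n (a m) = a m := fun m n hmn =>
    NN.le_ind (P := fun n => P n (a m) = a m) (by fun_prop)
      (by rw [h1, q2, q1, zero_add, one_smul])
      (fun n _ ih => by
        have h2 : b n (a m) = 0 := by rw [← ih, q3]
        rw [h1, ih, h2, zero_smul, add_zero]) (NN.add_one_le_iff.2 hmn)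
  refine ⟨a, b, ha, hb, hL, ⟨fun i => (hL i).1, fun i => (hL i).2.1, q1, fun i j hij => ?_,
    fun i y hy => hy i⟩, d, hd, fun x ε hε => ?_⟩
  · rcases lt_or_gt_of_ne hij with h | h
    · rw [← hbP i j h, q2, (hL i).zero]
    · rw [← hPa j i h, q3]
  · obtain ⟨y, ⟨c, hc⟩, hy⟩ := hdense x (ε / 3) (by positivity)
    obtain ⟨w, hw⟩ := geo (fun j => P j y) (|c| + 1) (DefF.toIntl (by fun_prop)) fun j => by
      beta_reduce
      rw [H.nm_sub_comm, h1, add_sub_cancel_left]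
      exact (hS j).2.incr H hg hc
    obtain ⟨n, hn⟩ := hw (ε / 3) (by positivity)
    obtain ⟨t, ht⟩ := hd' n y (ε / 3) (by positivity)
    refine ⟨t, y - w, fun m => H.ab_eq _ (le_antisymm ?_ (H.ab_nonneg _)), ?_⟩
    · obtain ⟨C, hC, hC'⟩ := (hL m).2.2
      refine le_of_forall_pos_le_add fun η hη => ?_
      obtain ⟨k, hk⟩ := hw (η / (C + 1)) (by positivity)
      have h2 := hk (max k (m + 1)) (le_max_left _ _)
      have h3 := hbP m (max k (m + 1)) (NN.add_one_le_iff.1 (le_max_right _ _)) y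
      rw [(hL m).sub, ← h3, ← (hL m).sub]
      refine (hC' _).trans ?_
      rw [le_div_iff₀ (by positivity)] at h2
      have := H.nm_nonneg (P (max k (m + 1)) y - w)
      nlinarith
    · have e1 : x - d t - (y - w) = (x - y) + ((P n y - d t) - (P n y - w)) := by abel
      rw [e1]
      have h2 := H.nm_add (x - y) ((P n y - d t) - (P n y - w))
      have h3 := H.nm_sub (P n y - d t) (P n y - w)
      have h4 := hn n le_rfl
      beta_reduce at h4
      linarith

end Vale.Agent.P129B.BI
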