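import Mathlib.Tactic

/-!
# One step of the construction of a biorthogonal sequence (pure algebra)

`NP ab nm`: `ab` is an absolute value on the scalars and `nm` a norm on the vectors, both with
values in an ordered field.
-/

set_option linter.all false

namespace Vale.Agent.P129B.BI

variable {R K E ι : Type*} [Field R] [LinearOrder R] [IsStrictOrderedRing R] [Field K]
  [AddCommGroup E] [Module K E]

/-- an absolute value and a norm -/
structure NP (ab : K → R) (nm : E → R) : Prop where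
  ab_nonneg : ∀ a, 0 ≤ ab a
  ab_add : ∀ a b, ab (a + b) ≤ ab a + ab b
  ab_mul : ∀ a b, ab (a * b) = ab a * ab b
  ab_eq : ∀ a, ab a = 0 → a = 0
  ab_one : ab 1 = 1
  nm_nonneg : ∀ x, 0 ≤ nm x
  nm_add : ∀ x y, nm (x + y) ≤ nm x + nm y
  nm_smul : ∀ (a : K) (x : E), nm (a • x) = ab a * nm x
  scale : ∀ c : R, 0 < c → ∃ a : K, ab a = c

/-- bounded linear functionals, as plain functions -/
def Lin (ab : K → R) (nm : E → R) (u : E → K) : Prop :=
  (∀ x y, u (x + y) = u x + u y) ∧ (∀ (c : K) (x : E), u (c • x) = c * u x) ∧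
    ∃ C : R, 0 ≤ C ∧ ∀ x, ab (u x) ≤ C * nm x

/-- the family `g` is bounded at `x` -/
def Bnd (ab : K → R) (g : ι → E → K) (x : E) : Prop := ∃ c : R, ∀ k, ab (g k x) ≤ c

/-- good projections -/
def PG (ab : K → R) (nm : E → R) (g : ι → E → K) (P : E → E) : Prop :=
  (∀ x y, P (x + y) = P x + P y) ∧ (∀ (c : K) (x : E), P (c • x) = c • P x) ∧
    (∀ x, P (P x) = P x) ∧ (∃ c : R, 0 ≤ c ∧ ∀ x, nm (P x) ≤ c * nm x) ∧
    (∃ c : R, 0 ≤ c ∧ ∀ k x, ab (g k (P x)) ≤ c * nm x) ∧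
    ∃ c : R, 0 ≤ c ∧ ∀ k x, (∀ j, ab (g j x) ≤ 1) → ab (g k (P x)) ≤ c

/-- the next vector and the next functional -/
def SG (ab : K → R) (nm : E → R) (g : ι → E → K) (P : E → E) (ε : R) (x : E) (h : E → K) :
    Prop :=
  Lin ab nm h ∧ h x = 1 ∧ P x = 0 ∧ (∀ y, h (P y) = 0) ∧
    (∀ y, (∀ j, ab (g j y) ≤ 1) → ab (h y) * nm x ≤ ε) ∧ Bnd ab g x ∧
    ∃ c : R, 0 ≤ c ∧ ∀ y, (∀ j, ab (g j y) ≤ 1) → ab (h y) ≤ c

variable {ab : K → R} {nm : E → R}

theorem NP.ab_zero (H : NP ab nm) : ab 0 = 0 := by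
  have h1 := H.ab_mul 0 0
  have h2 := H.ab_mul 0 (1 + 1)
  rw [zero_mul] at h1 h2
  by_contra h
  have h3 : ab 0 = 1 := by
    have := mul_left_cancel₀ h (h1.symm.trans (mul_one _).symm)
    exact this
  obtain ⟨a, ha⟩ := H.scale 2 two_pos
  have h4 := H.ab_mul 0 a
  rw [zero_mul, h3, ha] at h4
  norm_num at h4

theorem NP.ab_neg_one (H : NP ab nm) : ab (-1) = 1 := by
  have h1 := H.ab_mul (-1) (-1)
  rw [neg_mul_neg, one_mul, H.ab_one] at h1
  have h2 := H.ab_nonneg (-1)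
  nlinarith

theorem NP.ab_neg (H : NP ab nm) (a : K) : ab (-a) = ab a := by
  rw [← neg_one_mul, H.ab_mul, H.ab_neg_one, one_mul]

theorem NP.ab_sub (H : NP ab nm) (a b : K) : ab (a - b) ≤ ab a + ab b := by
  rw [sub_eq_add_neg, ← H.ab_neg b]; exact H.ab_add _ _

theorem NP.nm_zero (H : NP ab nm) : nm 0 = 0 := by
  rw [← zero_smul K (0 : E), H.nm_smul, H.ab_zero, zero_mul]

theorem NP.nm_neg (H : NP ab nm) (x : E) : nm (-x) = nm x := by
  rw [← neg_one_smul K x, H.nm_smul, H.ab_neg_one, one_mul]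

theorem NP.nm_sub (H : NP ab nm) (x y : E) : nm (x - y) ≤ nm x + nm y := by
  rw [sub_eq_add_neg, ← H.nm_neg y]; exact H.nm_add _ _

theorem NP.nm_sub_comm (H : NP ab nm) (x y : E) : nm (x - y) = nm (y - x) := by
  rw [← neg_sub, H.nm_neg]

theorem NP.nm_tri (H : NP ab nm) (x y z : E) : nm (x - z) ≤ nm (x - y) + nm (y - z) := by
  have := H.nm_add (x - y) (y - z)
  rwa [sub_add_sub_cancel] at this

theorem Lin.zero {u : E → K} (h : Lin ab nm u) : u 0 = 0 := by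
  rw [← zero_smul K (0 : E), h.2.1, zero_mul]

theorem Lin.sub {u : E → K} (h : Lin ab nm u) (x y : E) : u (x - y) = u x - u y := by
  rw [sub_eq_add_neg, h.1, ← neg_one_smul K y, h.2.1, neg_one_mul, sub_eq_add_neg]

theorem PG.sub {g : ι → E → K} {P : E → E} (h : PG ab nm g P) (x y : E) :
    P (x - y) = P x - P y := by
  rw [sub_eq_add_neg, h.1, ← neg_one_smul K y, h.2.1, neg_one_smul, sub_eq_add_neg]

theorem pg_zero (H : NP ab nm) {g : ι → E → K} (hg : ∀ k, Lin ab nm (g k)) :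
    PG ab nm g (fun _ => 0) :=
  ⟨fun _ _ => (add_zero _).symm, fun _ _ => (smul_zero _).symm, fun _ => rfl,
    ⟨0, le_rfl, fun x => by rw [H.nm_zero, zero_mul]⟩,
    ⟨0, le_rfl, fun k x => by rw [(hg k).zero, H.ab_zero, zero_mul]⟩,
    ⟨0, le_rfl, fun k x _ => by rw [(hg k).zero, H.ab_zero]⟩⟩

/-- One step. -/
theorem step (H : NP ab nm) {g : ι → E → K} (hg : ∀ k, Lin ab nm (g k))
    (hunb : ∀ c : R, ∃ k x, c * nm x < ab (g k x))
    (hdense : ∀ (x : E) (ε : R), 0 < ε → ∃ y, Bnd ab g y ∧ nm (x - y) < ε) {P : E → E}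
    (hP : PG ab nm g P) {ε : R} (hε : 0 < ε) :
    ∃ k y, SG ab nm g P ε (y - P y) (fun z => (g k (y - P y))⁻¹ * g k (z - P z)) := by
  have hsub := hP.sub
  obtain ⟨hadd, hsmul, hidem, ⟨c₄, hc₄, h4⟩, ⟨c₂, hc₂, h2⟩, c₃, hc₃, h3⟩ := hP
  set r : R := (1 + c₃) * (1 + c₄) / ε with hr
  have hr0 : 0 < r := by positivity
  obtain ⟨k, y₀, hk⟩ := hunb (r + c₂ + 1)
  obtain ⟨C, hC, hC'⟩ := (hg k).2.2
  have hu : ∀ z, g k (z - P z) = g k z - g k (P z) := fun z => (hg k).sub _ _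
  have hub : ∀ z, ab (g k (z - P z)) ≤ (C + c₂) * nm z := fun z => by
    rw [hu]
    have := H.ab_sub (g k z) (g k (P z))
    have := hC' z
    have := h2 k z
    linarith
  have hy0 : 0 < nm y₀ := by
    rcases (H.nm_nonneg y₀).lt_or_eq with h | h
    · exact h
    · have := hC' y₀
      rw [← h, mul_zero] at this hk
      linarith
  obtain ⟨y, hyB, hy⟩ := hdense y₀ (nm y₀ / (C + c₂ + r)) (by positivity)
  rw [lt_div_iff₀ (by positivity)] at hy
  have hy2 : r * nm y < ab (g k (y - P y)) := by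
    have e1 : g k y₀ = g k (P y₀) + (g k (y₀ - y - P (y₀ - y)) + g k (y - P y)) := by
      rw [← (hg k).1, ← (hg k).1, hsub]; congr 1; abel
    have e2 := H.ab_add (g k (P y₀)) (g k (y₀ - y - P (y₀ - y)) + g k (y - P y))
    have e3 := H.ab_add (g k (y₀ - y - P (y₀ - y))) (g k (y - P y))
    have e4 := hub (y₀ - y)
    have e5 := h2 k y₀
    have e6 : nm y ≤ nm y₀ + nm (y₀ - y) := by
      have := H.nm_sub y₀ (y₀ - y)
      rwa [sub_sub_cancel] at this
    have e7 := mul_le_mul_of_nonneg_left e6 hr0.le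
    rw [← e1] at e2
    nlinarith
  have hpos : 0 < ab (g k (y - P y)) := (mul_nonneg hr0.le (H.nm_nonneg y)).trans_lt hy2
  have hne : g k (y - P y) ≠ 0 := fun h => by
    rw [h, H.ab_zero] at hpos; exact lt_irrefl _ hpos
  have hinv : ab (g k (y - P y))⁻¹ * ab (g k (y - P y)) = 1 := by
    rw [← H.ab_mul, inv_mul_cancel₀ hne, H.ab_one]
  have hi0 := H.ab_nonneg (g k (y - P y))⁻¹
  have hCb : ∀ z, (∀ j, ab (g j z) ≤ 1) → ab (g k (z - P z)) ≤ 1 + c₃ := fun z hz => by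
    rw [hu]
    exact (H.ab_sub _ _).trans (add_le_add (hz k) (h3 k z hz))
  have hPy : P (y - P y) = 0 := by rw [hsub, hidem, sub_self]
  refine ⟨k, y, ⟨fun a b => ?_, fun c a => ?_, ab (g k (y - P y))⁻¹ * (C + c₂), by positivity,
    fun z => ?_⟩, ?_, hPy, fun z => ?_, fun z hz => ?_, ?_,
    ab (g k (y - P y))⁻¹ * (1 + c₃), by positivity, fun z hz => ?_⟩
  · beta_reduce
    rw [← mul_add, ← (hg k).1, hadd]; congr 2; abel
  · beta_reduce
    rw [hsmul, ← smul_sub, (hg k).2.1]; ring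
  · beta_reduce
    rw [H.ab_mul, mul_assoc]
    exact mul_le_mul_of_nonneg_left (hub z) hi0
  · beta_reduce
    rw [hPy, sub_zero, inv_mul_cancel₀ hne]
  · beta_reduce
    rw [hidem, sub_self, (hg k).zero, mul_zero]
  · beta_reduce
    rw [H.ab_mul]
    have e1 : nm (y - P y) ≤ (1 + c₄) * nm y := by
      have := H.nm_sub y (P y)
      have := h4 y
      linarith
    have e2 : ab (g k (z - P z)) * nm (y - P y) ≤ (1 + c₃) * ((1 + c₄) * nm y) :=
      mul_le_mul (hCb z hz) e1 (H.nm_nonneg _) (by positivity)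
    have e3 : (1 + c₃) * ((1 + c₄) * nm y) = ε * (r * nm y) := by
      rw [hr]; field_simp
    have e4 := mul_le_mul_of_nonneg_left hy2.le hε.le
    calc _ = ab (g k (y - P y))⁻¹ * (ab (g k (z - P z)) * nm (y - P y)) := by ring
      _ ≤ ab (g k (y - P y))⁻¹ * (ε * ab (g k (y - P y))) :=
          mul_le_mul_of_nonneg_left (by linarith) hi0
      _ = ε * (ab (g k (y - P y))⁻¹ * ab (g k (y - P y))) := by ring
      _ = ε := by rw [hinv, mul_one]
  · obtain ⟨c, hc⟩ := hyB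
    refine ⟨c + c₂ * nm y, fun j => ?_⟩
    rw [(hg j).sub]
    exact (H.ab_sub _ _).trans (add_le_add (hc j) (h2 j y))
  · beta_reduce
    rw [H.ab_mul]
    exact mul_le_mul_of_nonneg_left (hCb z hz) hi0

/-- The next projection. -/
theorem PG.next (H : NP ab nm) {g : ι → E → K} (hg : ∀ k, Lin ab nm (g k)) {P : E → E}
    (hP : PG ab nm g P) {ε : R} {x : E} {h : E → K} (hS : SG ab nm g P ε x h) :
    PG ab nm g (fun y => P y + h y • x) := by
  obtain ⟨hadd, hsmul, hidem, ⟨c₄, hc₄, h4⟩, ⟨c₂, hc₂, h2⟩, c₃, hc₃, h3⟩ := hP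
  obtain ⟨⟨k1, k2, C, hC, hC'⟩, k3, k4, k5, -, ⟨d, hd⟩, e, he, he'⟩ := hS
  have e1 : ∀ k y, g k (P y + h y • x) = g k (P y) + h y * g k x := fun k y => by
    rw [(hg k).1, (hg k).2.1]
  refine ⟨fun a b => ?_, fun c a => ?_, fun y => ?_, ⟨c₄ + C * nm x, ?_, fun y => ?_⟩,
    ⟨c₂ + C * |d|, by positivity, fun k y => ?_⟩, c₃ + e * |d|, by positivity, fun k y hy => ?_⟩
  all_goals try beta_reduce
  · rw [hadd, k1, add_smul]; abel
  · rw [hsmul, k2, smul_add, mul_smul]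
  · rw [hadd, hidem, hsmul, k4, smul_zero, add_zero, k1, k5, k2, k3, zero_add, mul_one]
  · have := H.nm_nonneg x
    positivity
  · refine (H.nm_add _ _).trans ?_
    rw [H.nm_smul]
    have := mul_le_mul_of_nonneg_right (hC' y) (H.nm_nonneg x)
    have := h4 y
    linarith
  · rw [e1]
    refine (H.ab_add _ _).trans ?_
    rw [H.ab_mul]
    have := mul_le_mul (hC' y) ((hd k).trans (le_abs_self d)) (H.ab_nonneg _)
      (mul_nonneg hC (H.nm_nonneg y))
    have := h2 k y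
    linarith
  · rw [e1]
    refine (H.ab_add _ _).trans (add_le_add (h3 k y hy) ?_)
    rw [H.ab_mul]
    exact mul_le_mul (he' y hy) ((hd k).trans (le_abs_self d)) (H.ab_nonneg _) he

/-- The size of the increments at a point where `g` is bounded. -/
theorem SG.incr (H : NP ab nm) {g : ι → E → K} (hg : ∀ k, Lin ab nm (g k)) {y : E} {c : R}
    (hc : ∀ k, ab (g k y) ≤ c) {P : E → E} {ε : R} {x : E} {h : E → K}
    (hS : SG ab nm g P ε x h) : nm (h y • x) ≤ (|c| + 1) * ε := by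
  have h0 : 0 < |c| + 1 := by positivity
  obtain ⟨a, ha⟩ := H.scale (|c| + 1)⁻¹ (by positivity)
  have h1 := hS.2.2.2.2.1 (a • y) fun j => by
    rw [(hg j).2.1, H.ab_mul, ha, inv_mul_le_iff₀ h0]
    have := (hc j).trans (le_abs_self c)
    linarith
  rw [hS.1.2.1, H.ab_mul, ha, mul_assoc, inv_mul_le_iff₀ h0] at h1
  rw [H.nm_smul]
  exact h1

end Vale.Agent.P129B.BI
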