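import Vale.Agent.P129BI.Seq
import Vale.Agent.P129BN.Elim2
import Vale.Agent.P129BL.Enum
import Vale.Agent.P129BZ.Scal
import Vale.Agent.P129B.Real

/-!
# Separable quotients from unbounded sequences of functionals which are bounded on a dense set
-/

set_option linter.all false

namespace Vale.Agent.P129B.BI

universe v

variable {N : Type v} [ZM N] {R : Type*} [Field R] [LinearOrder R] [IsStrictOrderedRing R]
  [Coded N R] [RF N R] {K : Type*} [Field K] [Algebra R K] [Nm K R] [KA R K] [Coded N K]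
  [KF N R K] {E : Type*} [AddCommGroup E] [Module K E] [Nm E R] [NA R K E] [Coded N E]
  [NS N R K E]

theorem np : NP (fun a : K => nm a) (fun x : E => nm x) where
  ab_nonneg := nm_nonneg
  ab_add := nm_add_le
  ab_mul := KA.nm_mul
  ab_eq _ h := nm_eq_zero.1 h
  ab_one := KA.nm_one
  nm_nonneg := nm_nonneg
  nm_add := nm_add_le
  nm_smul := nm_smul
  scale c hc := ⟨algebraMap R K c, KA.nm_ofR_of_nonneg hc.le⟩

variable (N R) in
/-- A dense sequence of real numbers. -/
theorem exists_dense_real : ∃ q : NN N → R, Intl N q ∧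
    ∀ (c ε : R), 0 < ε → ∃ t, |c - q t| ≤ ε := by
  refine ⟨fun t => (rc R t.p1 - rc R t.p2.p1) / (rc R t.p2.p2 + 1), DefF.toIntl (by fun_prop),
    fun c ε hε => ?_⟩
  obtain ⟨L, hL⟩ := exists_inv_rc_lt N hε
  have h0 : 0 < rc R L + 1 := rc_succ_pos L
  obtain ⟨M, hM⟩ := exists_rc_gt N (|c| * (rc R L + 1))
  have h1 : 0 ≤ c * (rc R L + 1) + rc R M := by
    have := mul_le_mul_of_nonneg_right (neg_abs_le c) h0.le
    linarith
  obtain ⟨n, h2, h3⟩ := exists_floor N h1
  refine ⟨NN.pr n (NN.pr M L), ?_⟩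
  simp only [NN.p1_pr, NN.p2_pr]
  have e : c - (rc R n - rc R M) / (rc R L + 1) =
      (c * (rc R L + 1) + rc R M - rc R n) * (rc R L + 1)⁻¹ := by
    field_simp
    ring
  have h4 : 0 < (rc R L + 1)⁻¹ := inv_pos.2 h0
  rw [e, abs_of_nonneg (mul_nonneg (by linarith) h4.le)]
  exact (mul_le_of_le_one_left h4.le (by linarith)).trans (hL L le_rfl).le

variable (N K) in
/-- A dense sequence of scalars. -/
theorem exists_dense_scal : ∃ q : NN N → K, Intl N q ∧
    ∀ (c : K) (ε : R), 0 < ε → ∃ t, nm (c - q t) ≤ ε := by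
  obtain ⟨q, hq, h⟩ := exists_dense_real N R
  refine ⟨fun t => algebraMap R K (q t.p1) + algebraMap R K (q t.p2) * KA.I,
    DefF.toIntl (by fun_prop), fun c ε hε => ?_⟩
  obtain ⟨i, hi⟩ := h (KA.re c) (ε / 2) (by positivity)
  obtain ⟨j, hj⟩ := h (KA.im c) (ε / 2) (by positivity)
  refine ⟨NN.pr i j, ?_⟩
  simp only [NN.p1_pr, NN.p2_pr]
  have e : c - (algebraMap R K (q i) + algebraMap R K (q j) * KA.I) =
      algebraMap R K (KA.re c - q i) + algebraMap R K (KA.im c - q j) * KA.I := by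
    conv_lhs => rw [← KA.re_add_im c]
    simp only [map_sub]
    ring
  rw [e]
  refine (nm_add_le _ _).trans ?_
  rw [KA.nm_mul, KA.nm_ofR, KA.nm_ofR]
  have := mul_le_of_le_one_right (abs_nonneg (KA.im c - q j)) (KA.nm_I_le (K := K))
  linarith

variable (K) in
include K in
/-- Sequences with geometrically small increments converge. -/
theorem geo_lim [Cpl N R E] (x : NN N → E) (C : R) (hx : Intl N x)
    (h : ∀ j, nm (x j - x (j + 1)) ≤ C * hp R j) :
    ∃ w, ∀ ε : R, 0 < ε → ∃ n, ∀ k, n ≤ k → nm (x k - w) ≤ ε := by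
  have hC : 0 ≤ C := by
    have := (nm_nonneg _).trans (h 0)
    rwa [hp_zero, mul_one] at this
  have key : ∀ n k, n ≤ k → nm (x n - x k) ≤ 2 * C * (hp R n - hp R k) := fun n k hk =>
    NN.le_ind (P := fun k => nm (x n - x k) ≤ 2 * C * (hp R n - hp R k)) (by fun_prop)
      (by simp) (fun k _ ih => by
        have h1 := nm_triangle (x n) (x k) (x (k + 1))
        have h2 := h k
        rw [hp_succ]
        linarith) hk
  obtain ⟨w, hw⟩ := Cpl.lim (N := N) x hx fun ε hε => by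
    obtain ⟨n, hn⟩ := exists_mul_hp_lt N (4 * C) hε
    refine ⟨n, fun k l hk hl => ?_⟩
    have h1 := nm_triangle (x k) (x n) (x l)
    rw [nm_sub_rev (x k) (x n)] at h1
    have h2 := key n k hk
    have h3 := key n l hl
    have h4 := mul_nonneg hC (hp_pos (R := R) k).le
    have h5 := mul_nonneg hC (hp_pos (R := R) l).le
    have h6 := hn n le_rfl
    linarith
  exact ⟨w, fun ε hε => (hw ε hε).imp fun n hn k hk => (hn k hk).le⟩

/-- **An unbounded sequence of functionals which is bounded on a dense set gives a separable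
quotient**, with the functionals as plain functions. -/
theorem unb_core [Cpl N R E] (g : NN N → E → K) [Intl N g]
    (hadd : ∀ k x y, g k (x + y) = g k x + g k y)
    (hsmul : ∀ k (c : K) (x : E), g k (c • x) = c * g k x)
    (hbd : ∀ k, ∃ C : R, ∀ x, nm (g k x) ≤ C * nm x)
    (hunb : ∀ c : R, ∃ k x, c * nm x < nm (g k x))
    (hdense : ∀ (x : E) (ε : R), 0 < ε → ∃ y, (∃ c : R, ∀ k, nm (g k y) ≤ c) ∧ nm (x - y) < ε) :
    ∃ Y : Set E, IsISub N K Y ∧
      (∀ x : E, (∀ ε : R, 0 < ε → ∃ y ∈ Y, nm (x - y) < ε) → x ∈ Y) ∧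
      (¬ ∃ (n : NN N) (w : NN N → E), Intl N w ∧
        ∀ x, ∃ c : NN N → K, Intl N c ∧ x - isum (fun i => c i • w i) n ∈ Y) ∧
      ∃ d : NN N → E, Intl N d ∧
        ∀ (x : E) (ε : R), 0 < ε → ∃ n, ∃ y ∈ Y, nm (x - d n - y) < ε := by
  obtain ⟨q, hq, hq'⟩ := exists_dense_scal N K
  have he : Intl N (hp R : NN N → R) := DefF.toIntl (f := fun n => hp R n) (by fun_prop)
  obtain ⟨a, b, ha, hb, hL, hB, d, hd, hd'⟩ := exists_bio (N := N) (np (K := K) (E := E))
    (by fun_prop) (by fun_prop) g (fun k => ⟨hadd k, hsmul k, by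
      obtain ⟨C, hC⟩ := hbd k
      exact ⟨|C|, abs_nonneg C, fun x => (hC x).trans
        (mul_le_mul_of_nonneg_right (le_abs_self C) (nm_nonneg x))⟩⟩)
    hunb hdense (hp R) hp_pos (geo_lim K) NN.p1 NN.p2
    (fun i j => ⟨NN.pr i j, NN.p1_pr i j, NN.p2_pr i j⟩) q hq'
  have hb2 := DefF.ofIntl2 (N := N) b
  have hY : Intl N {y | ∀ n, b n y = 0} := intl_setOfT (by fun_prop)
  refine ⟨{y | ∀ n, b n y = 0}, ⟨hY, fun n => (hL n).zero, fun x hx y hy n => ?_,
    fun c x hx n => ?_⟩, fun x hx n => ?_, hB.not_span, d, hd, fun x ε hε => ?_⟩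
  · rw [(hL n).1, hx n, hy n, add_zero]
  · rw [(hL n).2.1, hx n, mul_zero]
  · obtain ⟨C, hC, hC'⟩ := (hL n).2.2
    refine nm_le_zero_iff.1 (le_of_forall_pos_le_add fun η hη => ?_)
    obtain ⟨y, hy, h1⟩ := hx (η / (C + 1)) (by positivity)
    have h2 := hC' (x - y)
    rw [(hL n).sub, hy n, sub_zero] at h2
    rw [lt_div_iff₀ (by positivity)] at h1
    have := nm_nonneg (x - y)
    nlinarith
  · obtain ⟨t, y, h1, h2⟩ := hd' x ε hε
    exact ⟨t, y, h1, h2⟩

end Vale.Agent.P129B.BI
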